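import Vale.Agent.P261.H660.P1
import Mathlib.RingTheory.Localization.Module
import Mathlib.RingTheory.TensorProduct.Finite
import Mathlib.Algebra.Module.LocalizedModule.Basic
import Mathlib.RingTheory.Localization.BaseChange
import Mathlib.LinearAlgebra.Dimension.Finite

/-!
# P261, leaf P3: rational finiteness implies finite generation

`DerComplete.exists_module_of_rat`: a derived `p`-complete group `A` with finite torsion is
(for one module structure over `ℤ_[p]`) finitely generated over `ℤ_[p]` as soon as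
`ℚ_[p] ⊗ A` is finite-dimensional.
-/

open scoped TensorProduct

namespace Vale.Agent.P261

namespace H8

variable {p : ℕ} [hp : Fact p.Prime] {A : Type*} [AddCommGroup A] [Module ℤ_[p] A]

/-- The kernel of `A → ℚ_p ⊗ A` is killed by nonzero integers. -/
theorem exists_nsmul_of_tmul_eq_zero (x : A)
    (hx : (1 : ℚ_[p]) ⊗ₜ[ℤ_[p]] x = 0) : ∃ m : ℕ, m ≠ 0 ∧ m • x = 0 := by
  have h1 : IsLocalizedModule (nonZeroDivisors ℤ_[p]) (TensorProduct.mk ℤ_[p] ℚ_[p] A 1) :=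
    (isLocalizedModule_iff_isBaseChange (nonZeroDivisors ℤ_[p]) ℚ_[p] _).2
      (TensorProduct.isBaseChange ℤ_[p] A ℚ_[p])
  have h2 : (TensorProduct.mk ℤ_[p] ℚ_[p] A 1) x = 0 := hx
  rw [IsLocalizedModule.eq_zero_iff (nonZeroDivisors ℤ_[p])] at h2
  obtain ⟨c, hc⟩ := h2
  have hc0 : (c : ℤ_[p]) ≠ 0 := nonZeroDivisors.ne_zero c.2
  refine ⟨p ^ (c : ℤ_[p]).valuation, pow_ne_zero _ hp.out.ne_zero, ?_⟩
  have h3 : (c : ℤ_[p]) • x = 0 := hc
  rw [PadicInt.unitCoeff_spec hc0, mul_smul] at h3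
  have h4 : ((p : ℤ_[p]) ^ (c : ℤ_[p]).valuation) • x = 0 := by
    have := congrArg (fun y => ((PadicInt.unitCoeff hc0)⁻¹ : ℤ_[p]ˣ) • y) h3
    simpa [Units.smul_def, smul_smul] using this
  rw [← Nat.cast_smul_eq_nsmul ℤ_[p]]
  simpa using h4

/-- A `ℚ_p`-relation gives a relation over `ℤ_p` with a coefficient `1`. -/
theorem exists_rel [Module.Finite ℚ_[p] (ℚ_[p] ⊗[ℤ_[p]] A)]
    {k : ℕ} (hk : Module.finrank ℚ_[p] (ℚ_[p] ⊗[ℤ_[p]] A) < k) (a : Fin k → A) :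
    ∃ z : Fin k → ℤ_[p], (∃ j, z j = 1) ∧ ∃ m : ℕ, m ≠ 0 ∧ m • (∑ i, z i • a i) = 0 := by
  have h1 : ¬ LinearIndependent ℚ_[p] (fun i : Fin k => (1 : ℚ_[p]) ⊗ₜ[ℤ_[p]] a i) := by
    intro h
    have := h.fintype_card_le_finrank
    rw [Fintype.card_fin] at this
    omega
  rw [Fintype.not_linearIndependent_iff] at h1
  obtain ⟨q, hq, j0, hj0⟩ := h1
  obtain ⟨j, -, hj⟩ := Finset.exists_max_image Finset.univ (fun i => ‖q i‖) ⟨j0, Finset.mem_univ _⟩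
  have hqj : q j ≠ 0 := by
    intro h
    have := hj j0 (Finset.mem_univ _)
    rw [h, norm_zero] at this
    exact hj0 (norm_le_zero_iff.1 this)
  have hle : ∀ i, ‖q i / q j‖ ≤ 1 := by
    intro i
    rw [norm_div]
    exact div_le_one_of_le₀ (hj i (Finset.mem_univ _)) (norm_nonneg _)
  let w : Fin k → ℤ_[p] := fun i => ⟨q i / q j, hle i⟩
  refine ⟨w, ⟨j, ?_⟩, ?_⟩
  · apply Subtype.ext
    show q j / q j = 1
    exact div_self hqj
  · refine exists_nsmul_of_tmul_eq_zero (p := p) _ ?_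
    rw [TensorProduct.tmul_sum]
    have h2 : ∀ i, (1 : ℚ_[p]) ⊗ₜ[ℤ_[p]] (w i • a i) =
        (q j)⁻¹ • (q i • ((1 : ℚ_[p]) ⊗ₜ[ℤ_[p]] a i)) := by
      intro i
      rw [TensorProduct.tmul_smul, TensorProduct.smul_tmul', smul_smul, TensorProduct.smul_tmul']
      congr 1
      rw [Algebra.smul_def, mul_one, smul_eq_mul, mul_one]
      show q i / q j = _
      rw [div_eq_inv_mul]
    rw [Finset.sum_congr rfl (fun i _ => h2 i), ← Finset.smul_sum, hq, smul_zero]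

/-- Digits. -/
theorem exists_digit (z : ℤ_[p]) : ∃ (d : Fin p) (t : ℤ_[p]), z = ((d : ℕ) : ℤ_[p]) + (p : ℤ_[p]) * t := by
  have h1 := PadicInt.norm_sub_zmodRepr_lt_one z
  rw [PadicInt.norm_lt_one_iff_dvd] at h1
  obtain ⟨t, ht⟩ := h1
  refine ⟨⟨z.zmodRepr, PadicInt.zmodRepr_lt_p z⟩, t, ?_⟩
  rw [← ht]
  ring

theorem aux_add {B : Type*} [AddCommGroup B] (x y t b : B) :
    x + y + t + b = x + t + (y + b) := by
  abel

/-- Finitely many representatives modulo `p`. -/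
theorem exists_reps [Module.Finite ℚ_[p] (ℚ_[p] ⊗[ℤ_[p]] A)]
    (hT : {x : A | ∃ m : ℕ, m ≠ 0 ∧ m • x = 0}.Finite) :
    ∃ S : Set A, S.Finite ∧ ∀ a : A, ∃ s ∈ S, ∃ b : A, a = s + p • b := by
  classical
  -- independence modulo torsion and `p`
  let P : ℕ → Prop := fun k => ∃ a : Fin k → A, ∀ z : Fin k → ℤ_[p],
    (∃ t b : A, (∃ m : ℕ, m ≠ 0 ∧ m • t = 0) ∧ ∑ i, z i • a i = t + p • b) →
      ∀ i, (p : ℤ_[p]) ∣ z i
  have hpu : ¬ (p : ℤ_[p]) ∣ 1 := by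
    intro h
    exact PadicInt.prime_p.not_isUnit (isUnit_of_dvd_one h)
  have hP0 : P 0 := ⟨fun i => i.elim0, fun z _ i => i.elim0⟩
  have hPn : ¬ P (Module.finrank ℚ_[p] (ℚ_[p] ⊗[ℤ_[p]] A) + 1) := by
    rintro ⟨a, ha⟩
    obtain ⟨z, ⟨j, hj⟩, m, hm0, hm⟩ := exists_rel (Nat.lt_succ_self _) a
    have := ha z ⟨_, 0, ⟨m, hm0, hm⟩, by simp⟩ j
    rw [hj] at this
    exact hpu this
  obtain ⟨k, hk, hk1⟩ : ∃ k, P k ∧ ¬ P (k + 1) := by
    by_contra hcon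
    have hstep : ∀ k, P k → P (k + 1) := by
      intro k hk
      by_contra h1
      exact hcon ⟨k, hk, h1⟩
    have hall : ∀ k, P k := by
      intro k
      induction k with
      | zero => exact hP0
      | succ k ih => exact hstep k ih
    exact hPn (hall _)
  obtain ⟨a, ha⟩ := hk
  -- the representatives
  let T : Set A := {x : A | ∃ m : ℕ, m ≠ 0 ∧ m • x = 0}
  refine ⟨(fun dt : (Fin k → Fin p) × A => ∑ i, ((dt.1 i : ℕ) : ℤ_[p]) • a i + dt.2) ''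
    (Set.univ ×ˢ T), ?_, ?_⟩
  · exact (Set.finite_univ.prod hT).image _
  intro c
  have h1 : ¬ ∀ z : Fin (k + 1) → ℤ_[p],
    (∃ t b : A, (∃ m : ℕ, m ≠ 0 ∧ m • t = 0) ∧
      ∑ i, z i • (Fin.cons c a : Fin (k + 1) → A) i = t + p • b) → ∀ i, (p : ℤ_[p]) ∣ z i := by
    intro h
    exact hk1 ⟨_, h⟩
  push Not at h1
  obtain ⟨z, ⟨t, b, ⟨m, hm0, hm⟩, hz⟩, j, hj⟩ := h1
  rw [Fin.sum_univ_succ] at hz
  simp only [Fin.cons_zero, Fin.cons_succ] at hz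
  have hz0 : ¬ (p : ℤ_[p]) ∣ z 0 := by
    rintro ⟨w, hw⟩
    have h2 := ha (fun i => z i.succ) ⟨t, b - w • c, ⟨m, hm0, hm⟩, by
      rw [smul_sub, eq_sub_of_add_eq' hz, hw, mul_smul, Nat.cast_smul_eq_nsmul]
      abel⟩
    refine Fin.cases ?_ (fun i => ?_) j hj
    · intro h3; exact h3 ⟨w, hw⟩
    · intro h3; exact h3 (h2 i)
  have hu : IsUnit (z 0) := by
    by_contra hnu
    apply hz0
    rw [← PadicInt.norm_lt_one_iff_dvd]
    exact PadicInt.mem_nonunits.1 hnu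
  obtain ⟨u, hu⟩ := hu
  have hc : c = ∑ i : Fin k, (-(((u⁻¹ : ℤ_[p]ˣ) : ℤ_[p]) * z i.succ)) • a i +
      ((u⁻¹ : ℤ_[p]ˣ) : ℤ_[p]) • t + p • (((u⁻¹ : ℤ_[p]ˣ) : ℤ_[p]) • b) := by
    have h3 : z 0 • c = t + p • b - ∑ i : Fin k, z i.succ • a i := eq_sub_of_add_eq hz
    have h4 := congrArg (fun y => ((u⁻¹ : ℤ_[p]ˣ) : ℤ_[p]) • y) h3
    simp only [smul_smul, ← hu, Units.inv_mul, one_smul, smul_sub, smul_add, Finset.smul_sum] at h4
    rw [h4, smul_comm p]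
    simp only [neg_smul, Finset.sum_neg_distrib]
    abel
  choose dg tl hdg using exists_digit (p := p)
  refine ⟨_, ⟨(fun i => dg (-(((u⁻¹ : ℤ_[p]ˣ) : ℤ_[p]) * z i.succ)),
    ((u⁻¹ : ℤ_[p]ˣ) : ℤ_[p]) • t), ⟨Set.mem_univ _, ⟨m, hm0, ?_⟩⟩, rfl⟩,
    ∑ i : Fin k, tl (-(((u⁻¹ : ℤ_[p]ˣ) : ℤ_[p]) * z i.succ)) • a i +
      ((u⁻¹ : ℤ_[p]ˣ) : ℤ_[p]) • b, ?_⟩
  · show m • (((u⁻¹ : ℤ_[p]ˣ) : ℤ_[p]) • t) = 0
    rw [smul_comm, hm, smul_zero]
  · conv_lhs => rw [hc]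
    have h5 : ∀ i : Fin k, (-(((u⁻¹ : ℤ_[p]ˣ) : ℤ_[p]) * z i.succ)) • a i =
        ((dg (-(((u⁻¹ : ℤ_[p]ˣ) : ℤ_[p]) * z i.succ)) : ℕ) : ℤ_[p]) • a i +
          p • (tl (-(((u⁻¹ : ℤ_[p]ˣ) : ℤ_[p]) * z i.succ)) • a i) := by
      intro i
      conv_lhs => rw [hdg (-(((u⁻¹ : ℤ_[p]ˣ) : ℤ_[p]) * z i.succ))]
      rw [add_smul, mul_smul, Nat.cast_smul_eq_nsmul ℤ_[p] p]
    rw [Finset.sum_congr rfl (fun i _ => h5 i), Finset.sum_add_distrib, smul_add,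
      Finset.smul_sum]
    exact aux_add _ _ _ _

/-- The module structure over `ℤ_[p]` is unique. -/
theorem mod_unique {A : Type*} [AddCommGroup A] (h : DerComplete p A)
    (M M' : Module ℤ_[p] A) : M = M' := by
  apply Module.ext'
  intro z a
  let f : ℤ_[p] →+ A :=
    { toFun := fun z => M.toDistribMulAction.toMulAction.toSMul.smul z a
      map_zero' := M.zero_smul a
      map_add' := fun z w => M.add_smul z w a }
  let g : ℤ_[p] →+ A :=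
    { toFun := fun z => M'.toDistribMulAction.toMulAction.toSMul.smul z a
      map_zero' := M'.zero_smul a
      map_add' := fun z w => M'.add_smul z w a }
  have hfg : f = g := H660.hom_ext h f g ((M.one_smul a).trans (M'.one_smul a).symm)
  exact DFunLike.congr_fun hfg z

end H8

/-- (P3) -/
theorem DerComplete.exists_module_of_rat {p : ℕ} [Fact p.Prime] {A : Type*} [AddCommGroup A]
    (h : DerComplete p A) (hT : {x : A | ∃ m : ℕ, m ≠ 0 ∧ m • x = 0}.Finite) :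
    ∃ _ : Module ℤ_[p] A,
      Module.Finite ℚ_[p] (ℚ_[p] ⊗[ℤ_[p]] A) → Module.Finite ℤ_[p] A := by
  let _ : Module ℤ_[p] A := H660.mod h
  refine ⟨H660.mod h, ?_⟩
  intro hfin
  obtain ⟨S, hS, hd⟩ := H8.exists_reps (p := p) (A := A) hT
  obtain ⟨M, hM⟩ := h.exists_module S hS hd
  have hMe : M = H660.mod h := H8.mod_unique h M _
  subst hMe
  exact hM

end Vale.Agent.P261
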